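import Vale.Agent.P225.Alg.Spin

/-!
P225 algebraic core (helper27): matrix coefficients of the spin `a/2` representation of `SU(2)` as
polynomials in `(z, w, z̄, w̄) = (X 0, X 1, X 2, X 3)`, `g = [[z, -w̄], [w, z̄]]`, and the action of the
six linear fields (`fR` = right translations, i.e. left invariant; `fL` = left translations).
-/

namespace Vale.Agent.P225.Alg

open scoped BigOperators
open MvPolynomial (X mkDerivation)

noncomputable section

/-- Polynomials in `z, w, z̄, w̄`. -/
abbrev Pol := MvPolynomial (Fin 4) ℂ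

/-- Index of the basis `H, E, F` of `sl₂`. -/
inductive Sl2 | H | E | F
  deriving DecidableEq

instance : Fintype Sl2 := ⟨{.H, .E, .F}, fun u => by cases u <;> simp⟩

/-- The matrix of `H, E, F` in spin `a/2`. -/
def spin : Sl2 → (a : ℕ) → Matrix (Fin (a + 1)) (Fin (a + 1)) ℂ
  | .H => spinH
  | .E => spinE
  | .F => spinF

/-- `g ↦ g·u`. -/
def fR : Sl2 → Derivation ℂ Pol Pol
  | .H => mkDerivation ℂ ![X 0, X 1, -X 2, -X 3]
  | .E => mkDerivation ℂ ![0, 0, X 1, -X 0]
  | .F => mkDerivation ℂ ![-X 3, X 2, 0, 0]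

/-- `g ↦ u·g`. -/
def fL : Sl2 → Derivation ℂ Pol Pol
  | .H => mkDerivation ℂ ![X 0, -X 1, -X 2, X 3]
  | .E => mkDerivation ℂ ![X 1, 0, 0, -X 2]
  | .F => mkDerivation ℂ ![0, X 0, -X 3, 0]

/-- A derivation of `Pol` applied to the coefficients of a polynomial. -/
def coeffDeriv (D : Derivation ℂ Pol Pol) :
    Derivation ℂ (Polynomial Pol) (Polynomial Pol) :=
  PolynomialModule.equivPolynomialSelf.compDer D.mapCoeffs

@[simp]
theorem coeff_coeffDeriv (D : Derivation ℂ Pol Pol) (P : Polynomial Pol) (r : ℕ) :
    (coeffDeriv D P).coeff r = D (P.coeff r) := rfl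

@[simp]
theorem coeffDeriv_C (D : Derivation ℂ Pol Pol) (c : Pol) :
    coeffDeriv D (Polynomial.C c) = Polynomial.C (D c) := by
  ext r
  rw [coeff_coeffDeriv, Polynomial.coeff_C, Polynomial.coeff_C]
  split_ifs <;> simp

@[simp]
theorem coeffDeriv_X (D : Derivation ℂ Pol Pol) : coeffDeriv D Polynomial.X = 0 := by
  ext r
  rw [coeff_coeffDeriv, Polynomial.coeff_X]
  split_ifs <;> simp

/-- The image `zX + w` of `X`. -/
def colU : Polynomial Pol := Polynomial.C (X 0) * Polynomial.X + Polynomial.C (X 1)

/-- The image `-w̄X + z̄` of `Y = 1`. -/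
def colV : Polynomial Pol := Polynomial.C (-X 3) * Polynomial.X + Polynomial.C (X 2)

/-- The column of `X^p Y^q`. -/
def col (p q : ℕ) : Polynomial Pol := colU ^ p * colV ^ q

/-- The matrix coefficient `(r,p)` in spin `a/2`. -/
def coef (a : ℕ) (r p : Fin (a + 1)) : Pol := (col p (a - p)).coeff r

/-- The matrix of coefficients in spin `a/2`. -/
def coefM (a : ℕ) : Matrix (Fin (a + 1)) (Fin (a + 1)) Pol := Matrix.of (coef a)

theorem natDegree_colU : colU.natDegree ≤ 1 := by
  unfold colU; compute_degree

theorem natDegree_colV : colV.natDegree ≤ 1 := by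
  unfold colV; compute_degree

theorem natDegree_col (p q : ℕ) : (col p q).natDegree ≤ p + q := by
  unfold col
  refine Polynomial.natDegree_mul_le.trans (add_le_add ?_ ?_)
  · exact Polynomial.natDegree_pow_le.trans (by simpa using Nat.mul_le_mul_left p natDegree_colU)
  · exact Polynomial.natDegree_pow_le.trans (by simpa using Nat.mul_le_mul_left q natDegree_colV)

theorem coeffDeriv_colU_R (u : Sl2) : coeffDeriv (fR u) colU =
    match u with | .H => colU | .E => 0 | .F => colV := by
  cases u <;>
    (simp [colU, colV, fR]; try ring)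

theorem coeffDeriv_colV_R (u : Sl2) : coeffDeriv (fR u) colV =
    match u with | .H => -colV | .E => colU | .F => 0 := by
  cases u <;>
    (simp [colU, colV, fR]; try ring)

theorem fR_H_col (p q : ℕ) :
    coeffDeriv (fR .H) (col p q) = ((p : Polynomial Pol) - q) * col p q := by
  rw [col, Derivation.leibniz, Derivation.leibniz_pow, Derivation.leibniz_pow,
    coeffDeriv_colU_R, coeffDeriv_colV_R]
  rcases p with _ | p <;> rcases q with _ | q <;> simp [pow_succ] <;> ring

theorem fR_E_col (p q : ℕ) :
    coeffDeriv (fR .E) (col p (q + 1)) = ((q + 1 : ℕ) : Polynomial Pol) * col (p + 1) q := by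
  rw [col, Derivation.leibniz, Derivation.leibniz_pow, Derivation.leibniz_pow,
    coeffDeriv_colU_R, coeffDeriv_colV_R]
  simp [col, pow_succ]
  ring

theorem fR_E_col_zero (p : ℕ) : coeffDeriv (fR .E) (col p 0) = 0 := by
  rw [col, Derivation.leibniz, Derivation.leibniz_pow, Derivation.leibniz_pow,
    coeffDeriv_colU_R]
  simp

theorem fR_F_col (p q : ℕ) :
    coeffDeriv (fR .F) (col (p + 1) q) = ((p + 1 : ℕ) : Polynomial Pol) * col p (q + 1) := by
  rw [col, Derivation.leibniz, Derivation.leibniz_pow, Derivation.leibniz_pow,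
    coeffDeriv_colU_R, coeffDeriv_colV_R]
  simp [col, pow_succ]
  ring

theorem fR_F_col_zero (q : ℕ) : coeffDeriv (fR .F) (col 0 q) = 0 := by
  rw [col, Derivation.leibniz, Derivation.leibniz_pow, Derivation.leibniz_pow,
    coeffDeriv_colV_R]
  simp

/-- Left-invariant fields act in the column index. -/
theorem fR_coef (u : Sl2) (a : ℕ) (r p : Fin (a + 1)) :
    fR u (coef a r p) = ∑ p', spin u a p' p • coef a r p' := by
  rw [coef, ← coeff_coeffDeriv]
  have hp : (p : ℕ) ≤ a := by omega
  cases u with
  | H =>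
    rw [fR_H_col, Finset.sum_eq_single p]
    · rw [show ((p : ℕ) : Polynomial Pol) - ((a - p : ℕ) : Polynomial Pol) =
        Polynomial.C (((p : ℕ) : Pol) - ((a - p : ℕ) : Pol)) by simp]
      rw [Polynomial.coeff_C_mul]
      simp [spin, spinH, coef, Algebra.smul_def, Nat.cast_sub hp]
      left
      rw [show MvPolynomial.C 2 = (2 : Pol) from map_ofNat _ 2]
      ring
    · intro b _ hb; simp [spin, spinH, hb]
    · simp
  | E =>
    by_cases h : (p : ℕ) < a
    · have e : a - (p : ℕ) = (a - ((p : ℕ) + 1)) + 1 := by omega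
      rw [Finset.sum_eq_single (⟨p + 1, by omega⟩ : Fin (a + 1))]
      · rw [e, fR_E_col, ← Polynomial.C_eq_natCast, Polynomial.coeff_C_mul, ← e]
        simp [spin, spinE, coef, Algebra.smul_def, Nat.cast_sub hp]
      · intro b _ hb
        simp only [spin]
        rw [spinE_eq_zero a b p (fun hbp => hb (Fin.ext hbp)), zero_smul]
      · simp
    · have e : a - (p : ℕ) = 0 := by omega
      rw [e, fR_E_col_zero, Finset.sum_eq_zero fun b _ => by
        simp only [spin]; rw [spinE_eq_zero a b p (by omega), zero_smul]]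
      simp
  | F =>
    rcases Nat.eq_zero_or_pos (p : ℕ) with h | h
    · rw [h, fR_F_col_zero, Finset.sum_eq_zero fun b _ => by
        simp only [spin]; rw [spinF_eq_zero a b p (by omega), zero_smul]]
      simp
    · obtain ⟨k, hk⟩ := Nat.exists_eq_add_of_le' h
      rw [Finset.sum_eq_single (⟨k, by omega⟩ : Fin (a + 1))]
      · rw [hk, fR_F_col, ← Polynomial.C_eq_natCast, Polynomial.coeff_C_mul]
        have e2 : a - (k + 1) + 1 = a - k := by omega
        simp [spin, spinF, coef, Algebra.smul_def, hk, e2]
      · intro b _ hb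
        simp only [spin]
        rw [spinF_eq_zero a b p (fun hbp => hb (Fin.ext (by simp only; omega))), zero_smul]
      · simp

/-- The operator of a left translation on the `X` variable: `n α Q + β Q'`. -/
theorem coeffDeriv_col_of (D : Derivation ℂ Pol Pol) (α β : Polynomial Pol)
    (hU : coeffDeriv D colU = α * colU + β * Polynomial.derivative colU)
    (hV : coeffDeriv D colV = α * colV + β * Polynomial.derivative colV) (p q : ℕ) :
    coeffDeriv D (col p q) =
      ((p + q : ℕ) : Polynomial Pol) * α * col p q + β * Polynomial.derivative (col p q) := by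
  rw [col, Derivation.leibniz, Derivation.leibniz_pow, Derivation.leibniz_pow, hU, hV,
    Polynomial.derivative_mul, Polynomial.derivative_pow, Polynomial.derivative_pow]
  rcases p with _ | p <;> rcases q with _ | q <;> simp [pow_succ] <;> ring

theorem fL_H_col (p q : ℕ) : coeffDeriv (fL .H) (col p q) =
    ((p + q : ℕ) : Polynomial Pol) * (-1) * col p q +
      2 * Polynomial.X * Polynomial.derivative (col p q) := by
  apply coeffDeriv_col_of <;> simp [colU, colV, fL, Derivation.leibniz] <;> ring

theorem fL_E_col (p q : ℕ) : coeffDeriv (fL .E) (col p q) =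
    ((p + q : ℕ) : Polynomial Pol) * Polynomial.X * col p q +
      -(Polynomial.X ^ 2 * Polynomial.derivative (col p q)) := by
  rw [coeffDeriv_col_of (fL .E) Polynomial.X (-(Polynomial.X ^ 2))]
  · ring
  all_goals
    simp [colU, colV, fL]
    ring

theorem fL_F_col (p q : ℕ) : coeffDeriv (fL .F) (col p q) =
    ((p + q : ℕ) : Polynomial Pol) * 0 * col p q +
      1 * Polynomial.derivative (col p q) := by
  apply coeffDeriv_col_of <;> simp [colU, colV, fL, Derivation.leibniz]

theorem coeff_natCast_mul' (n : ℕ) (P : Polynomial Pol) (r : ℕ) :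
    ((n : Polynomial Pol) * P).coeff r = (n : Pol) * P.coeff r := by
  rw [← Polynomial.C_eq_natCast, Polynomial.coeff_C_mul]

theorem coeff_natCast_neg_one_mul (n : ℕ) (P : Polynomial Pol) (r : ℕ) :
    ((n : Polynomial Pol) * (-1) * P).coeff r = -((n : Pol) * P.coeff r) := by
  have h : (n : Polynomial Pol) * (-1) * P = -((n : Polynomial Pol) * P) := by ring
  rw [h, Polynomial.coeff_neg, coeff_natCast_mul']

theorem coeff_two_X_mul_derivative (P : Polynomial Pol) (r : ℕ) :
    (2 * Polynomial.X * Polynomial.derivative P).coeff r = 2 * (r : Pol) * P.coeff r := by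
  rw [show (2 : Polynomial Pol) = Polynomial.C (2 : Pol) from (map_ofNat _ 2).symm,
    mul_assoc, Polynomial.coeff_C_mul]
  rcases r with _ | k
  · simp
  · rw [Polynomial.coeff_X_mul, Polynomial.coeff_derivative, Nat.cast_succ]
    ring

theorem coeff_natCast_X_mul (n : ℕ) (P : Polynomial Pol) (k : ℕ) :
    ((n : Polynomial Pol) * Polynomial.X * P).coeff (k + 1) = (n : Pol) * P.coeff k := by
  rw [mul_assoc, coeff_natCast_mul', Polynomial.coeff_X_mul]

theorem coeff_X_sq_mul_derivative (P : Polynomial Pol) (k : ℕ) :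
    (Polynomial.X ^ 2 * Polynomial.derivative P).coeff (k + 1) = (k : Pol) * P.coeff k := by
  rw [Polynomial.coeff_X_pow_mul']
  rcases k with _ | j
  · simp
  · rw [if_pos (by omega), show j + 1 + 1 - 2 = j from rfl, Polynomial.coeff_derivative,
      Nat.cast_succ]
    ring

theorem fL_H_coef (a : ℕ) (r p : Fin (a + 1)) :
    fL .H (coef a r p) = ∑ r', spinH a r r' • coef a r' p := by
  have e : (p : ℕ) + (a - p) = a := by omega
  rw [coef, ← coeff_coeffDeriv, fL_H_col, e, Polynomial.coeff_add, coeff_natCast_neg_one_mul,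
    coeff_two_X_mul_derivative, Finset.sum_eq_single r]
  · rw [spinH, Matrix.diagonal_apply_eq, Algebra.smul_def, map_sub, map_mul, map_ofNat,
      map_natCast, map_natCast, coef]
    ring
  · intro b _ hb; simp [spinH, Ne.symm hb]
  · simp

theorem fL_E_coef (a : ℕ) (r p : Fin (a + 1)) :
    fL .E (coef a r p) = ∑ r', spinE a r r' • coef a r' p := by
  have e : (p : ℕ) + (a - p) = a := by omega
  rw [coef, ← coeff_coeffDeriv, fL_E_col, e, Polynomial.coeff_add, Polynomial.coeff_neg]
  rcases hr : (r : ℕ) with _ | k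
  · rw [Finset.sum_eq_zero fun b _ => by
      rw [spinE_eq_zero a r b (by omega), zero_smul], mul_assoc, coeff_natCast_mul',
      Polynomial.coeff_X_pow_mul']
    simp
  · rw [coeff_natCast_X_mul, coeff_X_sq_mul_derivative,
      Finset.sum_eq_single (⟨k, by omega⟩ : Fin (a + 1))]
    · simp only [spinE, Matrix.of_apply, hr, ↓reduceIte, coef]
      rw [Algebra.smul_def, map_sub, map_natCast, map_natCast]
      ring
    · intro b _ hb
      rw [spinE_eq_zero a r b (fun h => hb (Fin.ext (by simp only; omega))), zero_smul]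
    · simp

theorem fL_F_coef (a : ℕ) (r p : Fin (a + 1)) :
    fL .F (coef a r p) = ∑ r', spinF a r r' • coef a r' p := by
  have e : (p : ℕ) + (a - p) = a := by omega
  rw [coef, ← coeff_coeffDeriv, fL_F_col, e]
  simp only [mul_zero, zero_mul, zero_add, one_mul, Polynomial.coeff_derivative]
  by_cases h : (r : ℕ) < a
  · rw [Finset.sum_eq_single (⟨r + 1, by omega⟩ : Fin (a + 1))]
    · simp [spinF, coef, Algebra.smul_def]
      ring
    · intro b _ hb
      rw [spinF_eq_zero a r b (fun h => hb (Fin.ext (by simp only; omega))), zero_smul]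
    · simp
  · rw [Finset.sum_eq_zero fun b _ => by rw [spinF_eq_zero a r b (by omega), zero_smul],
      Polynomial.coeff_eq_zero_of_natDegree_lt]
    · simp
    · have := natDegree_col p (a - p)
      omega

/-- Right-invariant fields act in the row index. -/
theorem fL_coef (u : Sl2) (a : ℕ) (r p : Fin (a + 1)) :
    fL u (coef a r p) = ∑ r', spin u a r r' • coef a r' p := by
  cases u
  exacts [fL_H_coef a r p, fL_E_coef a r p, fL_F_coef a r p]

end

end Vale.Agent.P225.Alg
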