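import Vale.Agent.P225.Alg.S3.Coef

/-!
P225 algebraic core (helper27): the polynomials of `S3/Coef` as functions on `ℝ⁴`.

* `evalS P x` evaluates at `(z, w, z̄, w̄) = (x₀+ix₁, x₂+ix₃, x₀-ix₁, x₂-ix₃)`;
* the derivation `DR i` / `DL i` is the derivative along the linear field `vR i` / `vL i`
  (left / right invariant, tangent to all spheres, orthonormal on the unit sphere);
* `-∑ DR i² = -∑ DL i² = a(a+2)` on the coefficients of level `a`.
-/

namespace Vale.Agent.P225.Alg

open scoped BigOperators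
open MvPolynomial (X pderiv mkDerivation)
open Complex (I)

noncomputable section

/-- `x ↦ (z, w, z̄, w̄)`. -/
def emb : (Fin 4 → ℝ) →L[ℝ] (Fin 4 → ℂ) :=
  LinearMap.toContinuousLinearMap
    { toFun := fun x => ![x 0 + x 1 * I, x 2 + x 3 * I, x 0 - x 1 * I, x 2 - x 3 * I]
      map_add' := fun x y => by ext i; fin_cases i <;> simp <;> ring
      map_smul' := fun c x => by ext i; fin_cases i <;> simp <;> ring }

@[simp] theorem emb_zero' (x : Fin 4 → ℝ) : emb x 0 = x 0 + x 1 * I := rfl
@[simp] theorem emb_one (x : Fin 4 → ℝ) : emb x 1 = x 2 + x 3 * I := rfl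
@[simp] theorem emb_two (x : Fin 4 → ℝ) : emb x 2 = x 0 - x 1 * I := rfl
@[simp] theorem emb_three (x : Fin 4 → ℝ) : emb x 3 = x 2 - x 3 * I := rfl

/-- A polynomial as a function on `ℝ⁴`. -/
def evalS (P : Pol) (x : Fin 4 → ℝ) : ℂ := MvPolynomial.eval (emb x) P

@[simp] theorem evalS_add (P Q : Pol) (x) : evalS (P + Q) x = evalS P x + evalS Q x :=
  map_add _ _ _

@[simp] theorem evalS_sub (P Q : Pol) (x) : evalS (P - Q) x = evalS P x - evalS Q x :=
  map_sub (MvPolynomial.eval (emb x)) P Q

@[simp] theorem evalS_mul (P Q : Pol) (x) : evalS (P * Q) x = evalS P x * evalS Q x :=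
  map_mul _ _ _

@[simp] theorem evalS_smul (c : ℂ) (P : Pol) (x) : evalS (c • P) x = c * evalS P x := by
  simp [evalS, MvPolynomial.smul_eval]

/-- The derivative of `evalS P`. -/
def dEvalS (P : Pol) (x : Fin 4 → ℝ) : (Fin 4 → ℝ) →L[ℝ] ℂ :=
  ∑ k, evalS (pderiv k P) x • (ContinuousLinearMap.proj k : (Fin 4 → ℂ) →L[ℝ] ℂ).comp emb

theorem dEvalS_apply (P : Pol) (x v : Fin 4 → ℝ) :
    dEvalS P x v = ∑ k, evalS (pderiv k P) x * emb v k := by
  simp [dEvalS]

theorem hasFDerivAt_evalS (P : Pol) (x : Fin 4 → ℝ) :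
    HasFDerivAt (evalS P) (dEvalS P x) x := by
  induction P using MvPolynomial.induction_on with
  | C c =>
    have h : dEvalS (MvPolynomial.C c) x = 0 := by
      ext v; simp [dEvalS_apply, evalS]
    rw [h]
    have h2 : evalS (MvPolynomial.C c) = fun _ => c := by funext y; simp [evalS]
    rw [h2]
    exact hasFDerivAt_const c x
  | add P Q hP hQ =>
    have h : dEvalS (P + Q) x = dEvalS P x + dEvalS Q x := by
      ext v; simp [dEvalS_apply, add_mul, Finset.sum_add_distrib]
    have h2 : evalS (P + Q) = fun y => evalS P y + evalS Q y := funext (evalS_add P Q)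
    rw [h, h2]
    exact hP.add hQ
  | mul_X P i hP =>
    have h2 : evalS (P * X i) = fun y => evalS P y * emb y i := by
      funext y; simp [evalS]
    rw [h2]
    have hl : HasFDerivAt (fun y => emb y i)
        ((ContinuousLinearMap.proj i : (Fin 4 → ℂ) →L[ℝ] ℂ).comp emb) x :=
      ((ContinuousLinearMap.proj i : (Fin 4 → ℂ) →L[ℝ] ℂ).comp emb).hasFDerivAt
    refine (hP.mul hl).congr_fderiv ?_
    ext v
    simp only [dEvalS_apply, Derivation.leibniz, evalS_add, smul_eq_mul, evalS_mul,
      MvPolynomial.pderiv_X, add_apply, smul_apply,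
      ContinuousLinearMap.comp_apply, ContinuousLinearMap.proj_apply, add_mul,
      Finset.sum_add_distrib, Finset.mul_sum]
    congr 1
    · rw [Finset.sum_eq_single i]
      · simp [evalS]
      · intro b _ hb; simp [evalS, hb]
      · simp
    · refine Finset.sum_congr rfl fun k _ => ?_
      simp [evalS]
      ring

theorem differentiable_evalS (P : Pol) : Differentiable ℝ (evalS P) :=
  fun x => (hasFDerivAt_evalS P x).differentiableAt

theorem contDiff_evalS (P : Pol) {n : WithTop ℕ∞} : ContDiff ℝ n (evalS P) := by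
  induction P using MvPolynomial.induction_on with
  | C c =>
    have h2 : evalS (MvPolynomial.C c) = fun _ => c := by funext y; simp [evalS]
    rw [h2]; exact contDiff_const
  | add P Q hP hQ =>
    have h2 : evalS (P + Q) = fun y => evalS P y + evalS Q y := funext (evalS_add P Q)
    rw [h2]; exact hP.add hQ
  | mul_X P i hP =>
    have h2 : evalS (P * X i) = fun y => evalS P y * emb y i := by
      funext y; simp [evalS]
    rw [h2]
    exact hP.mul ((ContinuousLinearMap.proj i : (Fin 4 → ℂ) →L[ℝ] ℂ).comp emb).contDiff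

theorem derivation_apply_eq (D : Derivation ℂ Pol Pol) (P : Pol) :
    D P = ∑ k, pderiv k P * D (X k) := by
  induction P using MvPolynomial.induction_on with
  | C c => simp
  | add P Q hP hQ => simp [hP, hQ, add_mul, Finset.sum_add_distrib]
  | mul_X P i hP =>
    simp only [Derivation.leibniz, smul_eq_mul, hP, MvPolynomial.pderiv_X, Finset.mul_sum,
      add_mul, Finset.sum_add_distrib]
    congr 1
    · rw [Finset.sum_eq_single i]
      · simp
      · intro b _ hb; simp [hb]
      · simp
    · exact Finset.sum_congr rfl fun k _ => by ring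

/-- A derivation whose values at the coordinates are `emb v` differentiates along `v`. -/
theorem fderiv_evalS_of (D : Derivation ℂ Pol Pol) (x v : Fin 4 → ℝ)
    (h : ∀ k, evalS (D (X k)) x = emb v k) (P : Pol) :
    fderiv ℝ (evalS P) x v = evalS (D P) x := by
  rw [(hasFDerivAt_evalS P x).fderiv, dEvalS_apply, derivation_apply_eq D P]
  simp only [evalS, map_sum, map_mul]
  exact Finset.sum_congr rfl fun k _ => by rw [← h k]; rfl

/-- The skew combinations `iH, E - F, i(E + F)` of the right translations. -/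
def DR : Fin 3 → Derivation ℂ Pol Pol :=
  ![I • fR .H, fR .E - fR .F, I • (fR .E + fR .F)]

/-- The skew combinations `iH, E - F, i(E + F)` of the left translations. -/
def DL : Fin 3 → Derivation ℂ Pol Pol :=
  ![I • fL .H, fL .E - fL .F, I • (fL .E + fL .F)]

/-- The left-invariant fields. -/
def vR (i : Fin 3) (x : Fin 4 → ℝ) : Fin 4 → ℝ :=
  ![![-x 1, x 0, -x 3, x 2], ![x 2, -x 3, -x 0, x 1], ![-x 3, -x 2, x 1, x 0]] i

/-- The right-invariant fields. -/
def vL (i : Fin 3) (x : Fin 4 → ℝ) : Fin 4 → ℝ :=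
  ![![-x 1, x 0, x 3, -x 2], ![x 2, x 3, -x 0, -x 1], ![-x 3, x 2, -x 1, x 0]] i

theorem DR_coord (i : Fin 3) (x : Fin 4 → ℝ) (k : Fin 4) :
    evalS (DR i (X k)) x = emb (vR i x) k := by
  fin_cases i <;> fin_cases k <;>
    simp [DR, vR, fR, evalS, MvPolynomial.smul_eval, Complex.ext_iff]

theorem DL_coord (i : Fin 3) (x : Fin 4 → ℝ) (k : Fin 4) :
    evalS (DL i (X k)) x = emb (vL i x) k := by
  fin_cases i <;> fin_cases k <;>
    simp [DL, vL, fL, evalS, MvPolynomial.smul_eval, Complex.ext_iff]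

theorem fderiv_vR (i : Fin 3) (P : Pol) (x : Fin 4 → ℝ) :
    fderiv ℝ (evalS P) x (vR i x) = evalS (DR i P) x :=
  fderiv_evalS_of _ x _ (DR_coord i x) P

theorem fderiv_vL (i : Fin 3) (P : Pol) (x : Fin 4 → ℝ) :
    fderiv ℝ (evalS P) x (vL i x) = evalS (DL i P) x :=
  fderiv_evalS_of _ x _ (DL_coord i x) P

/-- The matrices `iH, E - F, i(E + F)`. -/
def spinX (a : ℕ) : Fin 3 → Matrix (Fin (a + 1)) (Fin (a + 1)) ℂ :=
  ![I • spinH a, spinE a - spinF a, I • (spinE a + spinF a)]

theorem DR_coef (i : Fin 3) (a : ℕ) (r p : Fin (a + 1)) :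
    DR i (coef a r p) = ∑ p', spinX a i p' p • coef a r p' := by
  fin_cases i <;>
    simp [DR, spinX, fR_coef, spin, Finset.smul_sum, ← Finset.sum_sub_distrib,
      ← Finset.sum_add_distrib, sub_smul, mul_smul, add_smul]

theorem DL_coef (i : Fin 3) (a : ℕ) (r p : Fin (a + 1)) :
    DL i (coef a r p) = ∑ r', spinX a i r r' • coef a r' p := by
  fin_cases i <;>
    simp [DL, spinX, fL_coef, spin, Finset.smul_sum, ← Finset.sum_sub_distrib,
      ← Finset.sum_add_distrib, sub_smul, mul_smul, add_smul]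

theorem DR_DR_coef (i j : Fin 3) (a : ℕ) (r p : Fin (a + 1)) :
    DR i (DR j (coef a r p)) = ∑ p', (spinX a i * spinX a j) p' p • coef a r p' := by
  simp only [DR_coef, map_sum, Derivation.map_smul, Finset.smul_sum, smul_smul, Matrix.mul_apply,
    Finset.sum_smul]
  rw [Finset.sum_comm]
  exact Finset.sum_congr rfl fun p' _ => Finset.sum_congr rfl fun q _ => by rw [mul_comm]

theorem DL_DL_coef (i j : Fin 3) (a : ℕ) (r p : Fin (a + 1)) :
    DL i (DL j (coef a r p)) = ∑ r', (spinX a j * spinX a i) r r' • coef a r' p := by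
  simp only [DL_coef, map_sum, Derivation.map_smul, Finset.smul_sum, smul_smul, Matrix.mul_apply,
    Finset.sum_smul]
  rw [Finset.sum_comm]

theorem spinX_sq_sum (a : ℕ) :
    ∑ i, spinX a i * spinX a i =
      (-((a : ℂ) * (a + 2))) • (1 : Matrix (Fin (a + 1)) (Fin (a + 1)) ℂ) := by
  rw [neg_smul, ← spin_casimir a, Fin.sum_univ_three]
  simp only [spinX, Matrix.cons_val_zero, Matrix.cons_val_one, Matrix.cons_val_two,
    Matrix.head_cons, Matrix.tail_cons, smul_mul_smul_comm, Complex.I_mul_I, sub_mul, mul_sub,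
    add_mul, mul_add, smul_add, two_smul, neg_smul, one_smul]
  abel

/-- `-∑ DR i²` is `a(a+2)` on level `a`. -/
theorem DR_casimir (a : ℕ) (r p : Fin (a + 1)) :
    ∑ i, DR i (DR i (coef a r p)) = (-((a : ℂ) * (a + 2))) • coef a r p := by
  simp only [DR_DR_coef]
  rw [Finset.sum_comm]
  simp only [← Finset.sum_smul, ← Matrix.sum_apply, spinX_sq_sum]
  rw [Finset.sum_eq_single p]
  · simp
  · intro b _ hb; simp [hb]
  · simp

/-- `-∑ DL i²` is `a(a+2)` on level `a`. -/
theorem DL_casimir (a : ℕ) (r p : Fin (a + 1)) :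
    ∑ i, DL i (DL i (coef a r p)) = (-((a : ℂ) * (a + 2))) • coef a r p := by
  simp only [DL_DL_coef]
  rw [Finset.sum_comm]
  simp only [← Finset.sum_smul, ← Matrix.sum_apply, spinX_sq_sum]
  rw [Finset.sum_eq_single r]
  · simp
  · intro b _ hb; simp [Ne.symm hb]
  · simp

end

end Vale.Agent.P225.Alg
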