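import Vale.Agent.P225.Alg.S3.Unitary

/-!
P225 algebraic core (helper27): the coefficients of all levels are linearly independent as
functions on the unit sphere `|x| = 1` of `ℝ⁴`.
-/

namespace Vale.Agent.P225.Alg

open scoped BigOperators
open Complex (I)

noncomputable section

/-- Polynomials vanishing on the unit sphere. -/
def sphereNull : Submodule ℂ Pol where
  carrier := {P | ∀ x, normSq4 x = 1 → evalS P x = 0}
  zero_mem' := fun x _ => by simp [evalS]
  add_mem' := fun hP hQ x hx => by rw [evalS_add, hP x hx, hQ x hx, add_zero]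
  smul_mem' := fun c P hP x hx => by rw [evalS_smul, hP x hx, mul_zero]

theorem mem_sphereNull {P : Pol} : P ∈ sphereNull ↔ ∀ x, normSq4 x = 1 → evalS P x = 0 := Iff.rfl

/-- A function vanishing on the sphere has vanishing derivative in tangent directions. -/
theorem fderiv_eq_zero_of_tangent {P : Pol} (hP : P ∈ sphereNull) {x v : Fin 4 → ℝ}
    (hx : normSq4 x = 1) (hv : normSq4 v = 1) (hxv : ∑ k, x k * v k = 0) :
    fderiv ℝ (evalS P) x v = 0 := by
  let γ : ℝ → (Fin 4 → ℝ) := fun t => Real.cos t • x + Real.sin t • v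
  have hγ : ∀ t, normSq4 (γ t) = 1 := fun t => by
    have e : normSq4 (γ t) = Real.cos t ^ 2 * normSq4 x + Real.sin t ^ 2 * normSq4 v +
        2 * Real.cos t * Real.sin t * ∑ k, x k * v k := by
      simp only [γ, normSq4, Finset.mul_sum, ← Finset.sum_add_distrib, Pi.add_apply,
        Pi.smul_apply, smul_eq_mul]
      exact Finset.sum_congr rfl fun k _ => by ring
    rw [e, hx, hv, hxv, mul_one, mul_one, mul_zero, add_zero, Real.cos_sq_add_sin_sq]
  have h0 : γ 0 = x := by simp [γ]
  have hd : HasDerivAt γ v 0 := by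
    have h := ((Real.hasDerivAt_cos 0).smul_const x).add ((Real.hasDerivAt_sin 0).smul_const v)
    simp only [Real.sin_zero, neg_zero, zero_smul, Real.cos_zero, one_smul, zero_add] at h
    exact h
  have hcomp : HasDerivAt (evalS P ∘ γ) (fderiv ℝ (evalS P) x v) 0 := by
    have := ((differentiable_evalS P) (γ 0)).hasFDerivAt.comp_hasDerivAt 0 hd
    rwa [h0] at this
  have hconst : evalS P ∘ γ = fun _ => 0 := funext fun t => hP _ (hγ t)
  rw [hconst] at hcomp
  exact hcomp.unique (hasDerivAt_const 0 0)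

theorem vR_tangent (i : Fin 3) (x : Fin 4 → ℝ) :
    normSq4 (vR i x) = normSq4 x ∧ ∑ k, x k * vR i x k = 0 := by
  fin_cases i <;> simp [normSq4, vR, Fin.sum_univ_four] <;> constructor <;> ring

theorem vL_tangent (i : Fin 3) (x : Fin 4 → ℝ) :
    normSq4 (vL i x) = normSq4 x ∧ ∑ k, x k * vL i x k = 0 := by
  fin_cases i <;> simp [normSq4, vL, Fin.sum_univ_four] <;> constructor <;> ring

theorem DR_mem_sphereNull (i : Fin 3) {P : Pol} (hP : P ∈ sphereNull) : DR i P ∈ sphereNull := by
  intro x hx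
  rw [← fderiv_vR]
  exact fderiv_eq_zero_of_tangent hP hx ((vR_tangent i x).1.trans hx) (vR_tangent i x).2

theorem DL_mem_sphereNull (i : Fin 3) {P : Pol} (hP : P ∈ sphereNull) : DL i P ∈ sphereNull := by
  intro x hx
  rw [← fderiv_vL]
  exact fderiv_eq_zero_of_tangent hP hx ((vL_tangent i x).1.trans hx) (vL_tangent i x).2

theorem fR_mem_sphereNull (u : Sl2) {P : Pol} (hP : P ∈ sphereNull) : fR u P ∈ sphereNull := by
  have h0 := DR_mem_sphereNull 0 hP
  have h1 := DR_mem_sphereNull 1 hP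
  have h2 := DR_mem_sphereNull 2 hP
  have e : fR u P = match u with
      | .H => (-I) • DR 0 P
      | .E => (1 / 2 : ℂ) • (DR 1 P + (-I) • DR 2 P)
      | .F => (1 / 2 : ℂ) • ((-1 : ℂ) • DR 1 P + (-I) • DR 2 P) := by
    cases u <;> simp [DR, smul_smul, ← add_smul, smul_add, smul_sub] <;> module
  rw [e]
  cases u
  · exact sphereNull.smul_mem _ h0
  · exact sphereNull.smul_mem _ (add_mem h1 (sphereNull.smul_mem _ h2))
  · exact sphereNull.smul_mem _ (add_mem (sphereNull.smul_mem _ h1) (sphereNull.smul_mem _ h2))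

theorem fL_mem_sphereNull (u : Sl2) {P : Pol} (hP : P ∈ sphereNull) : fL u P ∈ sphereNull := by
  have h0 := DL_mem_sphereNull 0 hP
  have h1 := DL_mem_sphereNull 1 hP
  have h2 := DL_mem_sphereNull 2 hP
  have e : fL u P = match u with
      | .H => (-I) • DL 0 P
      | .E => (1 / 2 : ℂ) • (DL 1 P + (-I) • DL 2 P)
      | .F => (1 / 2 : ℂ) • ((-1 : ℂ) • DL 1 P + (-I) • DL 2 P) := by
    cases u <;> simp [DL, smul_smul, ← add_smul, smul_add, smul_sub] <;> module
  rw [e]
  cases u
  · exact sphereNull.smul_mem _ h0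
  · exact sphereNull.smul_mem _ (add_mem h1 (sphereNull.smul_mem _ h2))
  · exact sphereNull.smul_mem _ (add_mem (sphereNull.smul_mem _ h1) (sphereNull.smul_mem _ h2))

theorem coef_notMem_sphereNull (a : ℕ) (r p : Fin (a + 1)) : coef a r p ∉ sphereNull := by
  intro h
  have up : ∀ k : Fin (a + 1), coef a k p ∈ sphereNull → ∀ k' : Fin (a + 1),
      ((k : ℕ) + 1 = k' ∨ (k' : ℕ) + 1 = k) → coef a k' p ∈ sphereNull := by
    intro k hk k' hk'
    rcases hk' with hk' | hk'
    · have := fL_mem_sphereNull .F hk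
      rw [fL_coef, Finset.sum_eq_single k' (fun b _ hb => by
        simp only [spin]
        rw [spinF_eq_zero a k b (fun e => hb (Fin.ext (e.symm.trans hk'))), zero_smul])
        (by simp)] at this
      exact (Submodule.smul_mem_iff _ (spinF_ne_zero a k k' hk')).1 this
    · have := fL_mem_sphereNull .E hk
      rw [fL_coef, Finset.sum_eq_single k' (fun b _ hb => by
        simp only [spin]
        rw [spinE_eq_zero a k b (fun e => hb (Fin.ext (by omega))), zero_smul])
        (by simp)] at this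
      exact (Submodule.smul_mem_iff _ (spinE_ne_zero a k k' hk'.symm)).1 this
  have all : ∀ n : ℕ, ∀ k : Fin (a + 1), ((k : ℕ) = r + n ∨ (k : ℕ) + n = r) →
      coef a k p ∈ sphereNull := by
    intro n
    induction n with
    | zero => intro k hk; rwa [show k = r from Fin.ext (by omega)]
    | succ n ih =>
      intro k hk
      rcases hk with hk | hk
      · exact up ⟨r + n, by omega⟩ (ih _ (Or.inl rfl)) k (Or.inl (by simp only; omega))
      · exact up ⟨(k : ℕ) + 1, by omega⟩ (ih _ (Or.inr (by simp only; omega))) k (Or.inr rfl)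
  have all' : ∀ k : Fin (a + 1), coef a k p ∈ sphereNull := fun k => by
    rcases le_total (r : ℕ) k with hk | hk
    · exact all (k - r) k (Or.inl (by omega))
    · exact all (r - k) k (Or.inr (by omega))
  let x0 : Fin 4 → ℝ := ![1, 0, 0, 0]
  have hx : normSq4 x0 = 1 := by simp [x0, normSq4, Fin.sum_univ_four]
  have hsum := coef_normSq_sum a p x0
  rw [hx, one_pow, Finset.sum_eq_zero fun k _ => by rw [all' k x0 hx]; simp] at hsum
  have hp : (0 : ℝ) < a.choose p := by exact_mod_cast Nat.choose_pos (by omega : (p : ℕ) ≤ a)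
  have : (0 : ℝ) < 1 / a.choose p := by positivity
  linarith

/-- Isolating one eigenvalue modulo an invariant submodule. -/
theorem mem_of_eigen_sum {ι : Type*} {K : Submodule ℂ Pol} (T : Pol →ₗ[ℂ] Pol)
    (hK : ∀ P ∈ K, T P ∈ K) (s : Finset ι) (c μ : ι → ℂ) (v : ι → Pol)
    (hv : ∀ i ∈ s, T (v i) = μ i • v i) (hsum : ∑ i ∈ s, c i • v i ∈ K) (μ₀ : ℂ) :
    ∑ i ∈ s with μ i = μ₀, c i • v i ∈ K := by
  classical
  have key : ∀ M : Finset ℂ, ∑ i ∈ s, ((∏ m ∈ M, (μ i - m)) * c i) • v i ∈ K := by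
    intro M
    induction M using Finset.induction_on with
    | empty => simpa using hsum
    | @insert m M hm ih =>
      have h := sub_mem (hK _ ih) (K.smul_mem m ih)
      rw [map_sum, Finset.smul_sum, ← Finset.sum_sub_distrib] at h
      convert h using 1
      refine Finset.sum_congr rfl fun i hi => ?_
      rw [map_smul, hv i hi, smul_smul, smul_smul, ← sub_smul, Finset.prod_insert hm]
      congr 1
      ring
  let M := (s.image μ).erase μ₀
  have hρ : ∏ m ∈ M, (μ₀ - m) ≠ 0 :=
    Finset.prod_ne_zero_iff.2 fun m hm => sub_ne_zero.2 (Finset.mem_erase.1 hm).1.symm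
  have h := key M
  rw [show ∑ i ∈ s, ((∏ m ∈ M, (μ i - m)) * c i) • v i =
      (∏ m ∈ M, (μ₀ - m)) • ∑ i ∈ s with μ i = μ₀, c i • v i by
    rw [Finset.smul_sum, Finset.sum_filter]
    refine Finset.sum_congr rfl fun i hi => ?_
    split_ifs with hμ
    · rw [smul_smul, hμ]
    · rw [Finset.prod_eq_zero (Finset.mem_erase.2 ⟨hμ, Finset.mem_image_of_mem μ hi⟩) (sub_self _),
        zero_mul, zero_smul]] at h
  exact (Submodule.smul_mem_iff _ hρ).1 h

/-- Index of all coefficients. -/
abbrev CIdx := Σ a : ℕ, Fin (a + 1) × Fin (a + 1)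

/-- The Casimir operator of the left-invariant fields. -/
def casR : Pol →ₗ[ℂ] Pol :=
  ∑ i, (DR i : Pol →ₗ[ℂ] Pol).comp (DR i : Pol →ₗ[ℂ] Pol)

/-- The coefficients of all levels are linearly independent on the sphere. -/
theorem coef_sphere_independent (T : Finset CIdx) (c : CIdx → ℂ)
    (h : ∀ x, normSq4 x = 1 → ∑ i ∈ T, c i * evalS (coef i.1 i.2.1 i.2.2) x = 0) :
    ∀ i ∈ T, c i = 0 := by
  classical
  set v : CIdx → Pol := fun i => coef i.1 i.2.1 i.2.2 with hv
  have hsum : ∑ i ∈ T, c i • v i ∈ sphereNull := fun x hx => by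
    have e : evalS (∑ i ∈ T, c i • v i) x = ∑ i ∈ T, c i * evalS (v i) x := by
      simp [evalS, map_sum, MvPolynomial.smul_eval]
    rw [e]; exact h x hx
  rintro ⟨a, r, p⟩ hi
  have hcasK : ∀ P ∈ sphereNull, casR P ∈ sphereNull := fun P hP => by
    simp only [casR, LinearMap.sum_apply, LinearMap.comp_apply, Derivation.coeFn_coe]
    exact Submodule.sum_mem _ fun i _ => DR_mem_sphereNull i (DR_mem_sphereNull i hP)
  have hRK : ∀ P ∈ sphereNull, (fR .H : Pol →ₗ[ℂ] Pol) P ∈ sphereNull :=
    fun P hP => fR_mem_sphereNull .H hP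
  have hLK : ∀ P ∈ sphereNull, (fL .H : Pol →ₗ[ℂ] Pol) P ∈ sphereNull :=
    fun P hP => fL_mem_sphereNull .H hP
  have s1 := mem_of_eigen_sum casR hcasK T c (fun i => -((i.1 : ℂ) * (i.1 + 2))) v (fun i _ => by
    simp only [casR, LinearMap.sum_apply, LinearMap.comp_apply, Derivation.coeFn_coe, hv]
    exact DR_casimir _ _ _) hsum (-((a : ℂ) * (a + 2)))
  have s2 := mem_of_eigen_sum (fR .H : Pol →ₗ[ℂ] Pol) hRK _ c
    (fun i => 2 * (i.2.2 : ℕ) - (i.1 : ℂ)) v (fun i _ => by
      simp only [Derivation.coeFn_coe, hv, fR_coef]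
      rw [Finset.sum_eq_single i.2.2 (fun b _ hb => by simp [spin, spinH, hb]) (by simp)]
      simp [spin, spinH]) s1 (2 * (p : ℕ) - (a : ℂ))
  have s3 := mem_of_eigen_sum (fL .H : Pol →ₗ[ℂ] Pol) hLK _ c
    (fun i => 2 * (i.2.1 : ℕ) - (i.1 : ℂ)) v (fun i _ => by
      simp only [Derivation.coeFn_coe, hv, fL_coef]
      rw [Finset.sum_eq_single i.2.1 (fun b _ hb => by simp [spin, spinH, Ne.symm hb]) (by simp)]
      simp [spin, spinH]) s2 (2 * (r : ℕ) - (a : ℂ))
  rw [Finset.sum_eq_single (⟨a, r, p⟩ : CIdx)] at s3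
  · by_contra hne
    exact coef_notMem_sphereNull a r p ((Submodule.smul_mem_iff _ hne).1 s3)
  · rintro ⟨a', r', p'⟩ hj hne
    exfalso
    simp only [Finset.mem_filter] at hj
    obtain ⟨⟨⟨-, h1⟩, h2⟩, h3⟩ := hj
    have h1' : (a' : ℂ) * (a' + 2) = (a : ℂ) * (a + 2) := neg_inj.1 h1
    have h1'' : a' * (a' + 2) = a * (a + 2) := by exact_mod_cast h1'
    have ha : a' = a := by
      rcases Nat.lt_trichotomy a' a with hlt | heq | hgt
      · exfalso; nlinarith
      · exact heq
      · exfalso; nlinarith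
    subst ha
    have hp : ((p' : ℕ) : ℂ) = (p : ℕ) := by linear_combination h2 / 2
    have hr : ((r' : ℕ) : ℂ) = (r : ℕ) := by linear_combination h3 / 2
    exact hne (by rw [Fin.ext (by exact_mod_cast hp : (p' : ℕ) = p),
      Fin.ext (by exact_mod_cast hr : (r' : ℕ) = r)])
  · intro hnot
    exfalso; exact hnot (by simp [hi])

end

end Vale.Agent.P225.Alg
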