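import Vale.Agent.P225.Alg.S3.Indep

/-!
P225 algebraic core (helper27): multiplication of the coefficients by the coordinates (the
Clebsch–Gordan rule for spin `a/2 ⊗ 1/2`), with `N = |x|²`:
`(a+1) z c^a_{r,p} = (r+1) c^{a+1}_{r+1,p+1} + (a-p) N c^{a-1}_{r,p}` and the three companions.
Consequently every polynomial of degree `≤ n` is, on the unit sphere, in the span of the levels
`a ≤ n`.
-/

namespace Vale.Agent.P225.Alg

open scoped BigOperators
open MvPolynomial (X)

noncomputable section

/-- `|x|² = z z̄ + w w̄`. -/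
def polN : Pol := X 0 * X 2 + X 1 * X 3

/-- Coefficient `r` of the column `X^p Y^q` (any indices). -/
def cN (p q r : ℕ) : Pol := (col p q).coeff r

theorem coef_eq_cN (a : ℕ) (r p : Fin (a + 1)) : coef a r p = cN p (a - p) r := rfl

theorem cN_eq_zero {p q r : ℕ} (h : p + q < r) : cN p q r = 0 :=
  Polynomial.coeff_eq_zero_of_natDegree_lt (lt_of_le_of_lt (natDegree_col p q) h)

theorem evalS_polN (x : Fin 4 → ℝ) : evalS polN x = (normSq4 x : ℂ) := by
  simp [evalS, polN, normSq4, Fin.sum_univ_four, Complex.ext_iff, pow_two]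
  constructor <;> ring

theorem derivative_colU : Polynomial.derivative colU = Polynomial.C (X 0) := by simp [colU]

theorem derivative_colV : Polynomial.derivative colV = Polynomial.C (-X 3) := by simp [colV]

theorem det_colUV :
    Polynomial.C (X 0) * colV - Polynomial.C (-X 3) * colU = Polynomial.C polN := by
  simp [colU, colV, polN]; ring

theorem mul_z_col (p q : ℕ) :
    ((p + q + 1 : ℕ) : Polynomial Pol) * Polynomial.C (X 0) * col p q =
      Polynomial.derivative (col (p + 1) q) +
        (q : Polynomial Pol) * Polynomial.C polN * col p (q - 1) := by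
  rw [← det_colUV, col, col, col, Polynomial.derivative_mul, Polynomial.derivative_pow,
    Polynomial.derivative_pow, derivative_colU, derivative_colV]
  rcases q with _ | q <;> simp [pow_succ] <;> ring

theorem mul_negwbar_col (p q : ℕ) :
    ((p + q + 1 : ℕ) : Polynomial Pol) * Polynomial.C (-X 3) * col p q =
      Polynomial.derivative (col p (q + 1)) -
        (p : Polynomial Pol) * Polynomial.C polN * col (p - 1) q := by
  rw [← det_colUV, col, col, col, Polynomial.derivative_mul, Polynomial.derivative_pow,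
    Polynomial.derivative_pow, derivative_colU, derivative_colV]
  rcases p with _ | p <;> simp [pow_succ] <;> ring

theorem cN_succ_left (p q r : ℕ) :
    cN (p + 1) q (r + 1) = X 0 * cN p q r + X 1 * cN p q (r + 1) := by
  have e : col (p + 1) q = Polynomial.C (X 0) * (Polynomial.X * col p q) +
      Polynomial.C (X 1) * col p q := by
    simp only [col, pow_succ, colU]; ring
  rw [cN, e, Polynomial.coeff_add, Polynomial.coeff_C_mul, Polynomial.coeff_C_mul,
    Polynomial.coeff_X_mul]
  rfl

theorem cN_succ_left_zero (p q : ℕ) : cN (p + 1) q 0 = X 1 * cN p q 0 := by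
  have e : col (p + 1) q = Polynomial.C (X 0) * (Polynomial.X * col p q) +
      Polynomial.C (X 1) * col p q := by
    simp only [col, pow_succ, colU]; ring
  rw [cN, e, Polynomial.coeff_add, Polynomial.coeff_C_mul, Polynomial.coeff_C_mul]
  simp [cN]

theorem cN_succ_right (p q r : ℕ) :
    cN p (q + 1) (r + 1) = -X 3 * cN p q r + X 2 * cN p q (r + 1) := by
  have e : col p (q + 1) = Polynomial.C (-X 3) * (Polynomial.X * col p q) +
      Polynomial.C (X 2) * col p q := by
    simp only [col, pow_succ, colV]; ring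
  rw [cN, e, Polynomial.coeff_add, Polynomial.coeff_C_mul, Polynomial.coeff_C_mul,
    Polynomial.coeff_X_mul]
  rfl

theorem cN_succ_right_zero (p q : ℕ) : cN p (q + 1) 0 = X 2 * cN p q 0 := by
  have e : col p (q + 1) = Polynomial.C (-X 3) * (Polynomial.X * col p q) +
      Polynomial.C (X 2) * col p q := by
    simp only [col, pow_succ, colV]; ring
  rw [cN, e, Polynomial.coeff_add, Polynomial.coeff_C_mul, Polynomial.coeff_C_mul]
  simp [cN]

/-- Multiplication by `z`. -/
theorem z_mul_cN (p q r : ℕ) : ((p + q + 1 : ℕ) : Pol) * (X 0 * cN p q r) =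
    ((r + 1 : ℕ) : Pol) * cN (p + 1) q (r + 1) + (q : Pol) * (polN * cN p (q - 1) r) := by
  have h := congrArg (Polynomial.coeff · r) (mul_z_col p q)
  simp only [mul_assoc, Polynomial.coeff_add, coeff_natCast_mul', Polynomial.coeff_C_mul,
    Polynomial.coeff_derivative] at h
  rw [cN, cN, cN, h]
  push_cast
  ring

/-- Multiplication by `w̄`. -/
theorem wbar_mul_cN (p q r : ℕ) : ((p + q + 1 : ℕ) : Pol) * (X 3 * cN p q r) =
    (p : Pol) * (polN * cN (p - 1) q r) - ((r + 1 : ℕ) : Pol) * cN p (q + 1) (r + 1) := by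
  have h := congrArg (Polynomial.coeff · r) (mul_negwbar_col p q)
  simp only [mul_assoc, Polynomial.coeff_sub, coeff_natCast_mul', Polynomial.coeff_C_mul,
    Polynomial.coeff_derivative] at h
  rw [cN, cN, cN]
  push_cast at h ⊢
  linear_combination -h

/-- Multiplication by `w`. -/
theorem w_mul_cN (p q r : ℕ) : ((p + q + 1 : ℕ) : Pol) * (X 1 * cN p q r) =
    (((p + q + 1 : ℕ) : Pol) - (r : Pol)) * cN (p + 1) q r -
      if r = 0 then 0 else (q : Pol) * (polN * cN p (q - 1) (r - 1)) := by
  rcases r with _ | r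
  · rw [cN_succ_left_zero]; simp
  · have h := z_mul_cN p q r
    rw [if_neg (Nat.succ_ne_zero r), cN_succ_left, Nat.add_sub_cancel]
    rw [cN_succ_left] at h
    push_cast at h ⊢
    linear_combination -h

/-- Multiplication by `z̄`. -/
theorem zbar_mul_cN (p q r : ℕ) : ((p + q + 1 : ℕ) : Pol) * (X 2 * cN p q r) =
    (((p + q + 1 : ℕ) : Pol) - (r : Pol)) * cN p (q + 1) r +
      if r = 0 then 0 else (p : Pol) * (polN * cN (p - 1) q (r - 1)) := by
  rcases r with _ | r
  · rw [cN_succ_right_zero]; simp
  · have h := wbar_mul_cN p q r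
    rw [if_neg (Nat.succ_ne_zero r), cN_succ_right, Nat.add_sub_cancel]
    rw [cN_succ_right] at h
    push_cast at h ⊢
    linear_combination h

/-- Span of the levels `a ≤ n`, modulo polynomials vanishing on the sphere. -/
def levelSpan (n : ℕ) : Submodule ℂ Pol :=
  Submodule.span ℂ {P | ∃ (a : ℕ) (r p : Fin (a + 1)), a ≤ n ∧ P = coef a r p} ⊔ sphereNull

theorem levelSpan_mono {m n : ℕ} (h : m ≤ n) : levelSpan m ≤ levelSpan n := by
  refine sup_le_sup_right (Submodule.span_mono ?_) _
  intro P hP
  obtain ⟨a, r, p, ha, e⟩ := hP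
  exact ⟨a, r, p, ha.trans h, e⟩

theorem cN_mem_levelSpan {p q r n : ℕ} (h : p + q ≤ n) : cN p q r ∈ levelSpan n := by
  by_cases hr : r ≤ p + q
  · unfold levelSpan
    refine Submodule.mem_sup_left (Submodule.subset_span ?_)
    exact ⟨p + q, ⟨r, by omega⟩, ⟨p, by omega⟩, h, by rw [coef_eq_cN]; simp⟩
  · rw [cN_eq_zero (by omega)]; exact zero_mem _

theorem polN_mul_mem {P : Pol} {n : ℕ} (h : P ∈ levelSpan n) : polN * P ∈ levelSpan n := by
  have hd : polN * P - P ∈ sphereNull := fun x hx => by simp [evalS_polN, hx]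
  have hd' : polN * P - P ∈ levelSpan n := Submodule.mem_sup_right hd
  simpa using add_mem hd' h

theorem natCast_mul_mem {P : Pol} {n : ℕ} (k : ℕ) (h : P ∈ levelSpan n) :
    (k : Pol) * P ∈ levelSpan n := by
  rw [← nsmul_eq_mul]; exact nsmul_mem h k

theorem X_mul_cN_mem (i : Fin 4) (p q r : ℕ) : X i * cN p q r ∈ levelSpan (p + q + 1) := by
  have hne : ((p + q + 1 : ℕ) : ℂ) ≠ 0 := Nat.cast_ne_zero.2 (by omega)
  refine (Submodule.smul_mem_iff _ hne).1 ?_
  rw [Algebra.smul_def, map_natCast]
  have hsub : ∀ {u : ℕ} {P : Pol}, P ∈ levelSpan (p + q + 1) →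
      (((p + q + 1 : ℕ) : Pol) - (u : Pol)) * P ∈ levelSpan (p + q + 1) := fun hP => by
    rw [sub_mul]; exact sub_mem (natCast_mul_mem _ hP) (natCast_mul_mem _ hP)
  fin_cases i
  · refine (z_mul_cN p q r).symm ▸ add_mem (natCast_mul_mem _ (cN_mem_levelSpan (by omega)))
      (natCast_mul_mem _ (polN_mul_mem (cN_mem_levelSpan (by omega))))
  · refine (w_mul_cN p q r).symm ▸ sub_mem (hsub (cN_mem_levelSpan (by omega))) ?_
    split_ifs
    · exact zero_mem _
    · exact natCast_mul_mem _ (polN_mul_mem (cN_mem_levelSpan (by omega)))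
  · refine (zbar_mul_cN p q r).symm ▸ add_mem (hsub (cN_mem_levelSpan (by omega))) ?_
    split_ifs
    · exact zero_mem _
    · exact natCast_mul_mem _ (polN_mul_mem (cN_mem_levelSpan (by omega)))
  · refine (wbar_mul_cN p q r).symm ▸ sub_mem
      (natCast_mul_mem _ (polN_mul_mem (cN_mem_levelSpan (by omega))))
      (natCast_mul_mem _ (cN_mem_levelSpan (by omega)))

theorem X_mul_mem (i : Fin 4) {P : Pol} {n : ℕ} (h : P ∈ levelSpan n) :
    X i * P ∈ levelSpan (n + 1) := by
  obtain ⟨u, hu, v, hv, rfl⟩ := Submodule.mem_sup.1 h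
  rw [mul_add]
  refine add_mem ?_ (Submodule.mem_sup_right fun x hx => by rw [evalS_mul, hv x hx, mul_zero])
  clear h
  induction hu using Submodule.span_induction with
  | mem Q hQ =>
    obtain ⟨a, r, p, ha, rfl⟩ := hQ
    rw [coef_eq_cN]
    exact levelSpan_mono (by omega) (X_mul_cN_mem i p (a - p) r)
  | zero => simp
  | add Q R _ _ hQ hR => rw [mul_add]; exact add_mem hQ hR
  | smul c Q _ hQ => rw [mul_smul_comm]; exact Submodule.smul_mem _ c hQ

theorem one_mem_levelSpan : (1 : Pol) ∈ levelSpan 0 := by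
  have h := cN_mem_levelSpan (p := 0) (q := 0) (r := 0) (n := 0) le_rfl
  simpa [cN, col] using h

theorem monomial_prod_mem (l : List (Fin 4)) : (l.map X).prod ∈ levelSpan l.length := by
  induction l with
  | nil => simpa using one_mem_levelSpan
  | cons i l ih => simpa using X_mul_mem i ih

/-- Every polynomial of degree `≤ n` is on the sphere in the span of the levels `a ≤ n`. -/
theorem mem_levelSpan {P : Pol} {n : ℕ} (h : P.totalDegree ≤ n) : P ∈ levelSpan n := by
  classical
  rw [P.as_sum]
  refine Submodule.sum_mem _ fun m hm => ?_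
  have hdeg : (m.sum fun _ e => e) ≤ n := (MvPolynomial.le_totalDegree hm).trans h
  rw [← mul_one (MvPolynomial.coeff m P), ← smul_eq_mul, ← MvPolynomial.smul_monomial]
  refine Submodule.smul_mem _ _ (levelSpan_mono (m := (Finsupp.toMultiset m).toList.length) ?_ ?_)
  · rw [Multiset.length_toList, Finsupp.card_toMultiset]; exact hdeg
  · have e : MvPolynomial.monomial m (1 : ℂ) = (((Finsupp.toMultiset m).toList).map X).prod := by
      rw [MvPolynomial.monomial_eq, ← Multiset.prod_coe, ← Multiset.map_coe, Multiset.coe_toList,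
        Finsupp.toMultiset_map, Finsupp.prod_toMultiset]
      rw [Finsupp.prod_mapDomain_index (fun _ => pow_zero _) (fun _ _ _ => pow_add _ _ _)]
      simp
    rw [e]
    exact monomial_prod_mem _

end

end Vale.Agent.P225.Alg
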