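import Vale.Agent.P225.Alg.S3.Eval

/-!
P225 algebraic core (helper27): spin `a/2` of a general `2 × 2` matrix is multiplicative and
transposes with binomial weights; hence on `ℝ⁴` the coefficients are unitary up to the radius:
`∑ r, |coef a r p|² / C(a,r) = |x|^(2a) / C(a,p)`.
-/

namespace Vale.Agent.P225.Alg

open scoped BigOperators ComplexConjugate
open Polynomial (C)

noncomputable section

/-- Column `p` of spin `a/2` of a matrix. -/
def colM (G : Matrix (Fin 2) (Fin 2) ℂ) (a p : ℕ) : Polynomial ℂ :=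
  (C (G 0 0) * Polynomial.X + C (G 1 0)) ^ p * (C (G 0 1) * Polynomial.X + C (G 1 1)) ^ (a - p)

/-- Spin `a/2` of a matrix. -/
def spinRep (a : ℕ) (G : Matrix (Fin 2) (Fin 2) ℂ) : Matrix (Fin (a + 1)) (Fin (a + 1)) ℂ :=
  Matrix.of fun r p => (colM G a p).coeff r

theorem natDegree_colM (G : Matrix (Fin 2) (Fin 2) ℂ) (a : ℕ) (p : Fin (a + 1)) :
    (colM G a p).natDegree ≤ a := by
  have h1 : ∀ u v : ℂ, (C u * Polynomial.X + C v).natDegree ≤ 1 := fun u v => by compute_degree
  refine Polynomial.natDegree_mul_le.trans ?_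
  have e1 := (Polynomial.natDegree_pow_le (p := C (G 0 0) * Polynomial.X + C (G 1 0)) (n := p)).trans
    (Nat.mul_le_mul_left _ (h1 _ _))
  have e2 := (Polynomial.natDegree_pow_le (p := C (G 0 1) * Polynomial.X + C (G 1 1))
    (n := a - p)).trans (Nat.mul_le_mul_left _ (h1 _ _))
  omega

theorem sum_spinRep_pow (a : ℕ) (G : Matrix (Fin 2) (Fin 2) ℂ) (p : Fin (a + 1)) (s : ℂ) :
    ∑ r, spinRep a G r p * s ^ (r : ℕ) =
      (G 0 0 * s + G 1 0) ^ (p : ℕ) * (G 0 1 * s + G 1 1) ^ (a - (p : ℕ)) := by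
  have h := Polynomial.eval_eq_sum_range' (p := colM G a p) (n := a + 1)
    (Nat.lt_succ_of_le (natDegree_colM G a p)) s
  rw [← Fin.sum_univ_eq_sum_range (fun r => (colM G a p).coeff r * s ^ r)] at h
  rw [show ∑ r, spinRep a G r p * s ^ (r : ℕ) = (colM G a p).eval s from h.symm]
  simp [colM]

/-- Homogeneous form of `sum_spinRep_pow`. -/
theorem sum_spinRep_pow₂ (a : ℕ) (G : Matrix (Fin 2) (Fin 2) ℂ) (p : Fin (a + 1)) (s t : ℂ) :
    ∑ r, spinRep a G r p * (s ^ (r : ℕ) * t ^ (a - (r : ℕ))) =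
      (G 0 0 * s + G 1 0 * t) ^ (p : ℕ) * (G 0 1 * s + G 1 1 * t) ^ (a - (p : ℕ)) := by
  refine congrFun (Continuous.ext_on
    (f := fun t : ℂ => ∑ r, spinRep a G r p * (s ^ (r : ℕ) * t ^ (a - (r : ℕ))))
    (g := fun t : ℂ =>
      (G 0 0 * s + G 1 0 * t) ^ (p : ℕ) * (G 0 1 * s + G 1 1 * t) ^ (a - (p : ℕ)))
    (dense_compl_singleton (0 : ℂ)) ?_ ?_ fun t (ht : t ≠ 0) => ?_) t
  · fun_prop
  · fun_prop
  show ∑ r, spinRep a G r p * (s ^ (r : ℕ) * t ^ (a - (r : ℕ))) =
    (G 0 0 * s + G 1 0 * t) ^ (p : ℕ) * (G 0 1 * s + G 1 1 * t) ^ (a - (p : ℕ))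
  have h := sum_spinRep_pow a G p (s / t)
  have hp : (p : ℕ) + (a - p) = a := by omega
  calc ∑ r, spinRep a G r p * (s ^ (r : ℕ) * t ^ (a - (r : ℕ)))
      = (∑ r, spinRep a G r p * (s / t) ^ (r : ℕ)) * t ^ a := by
        rw [Finset.sum_mul]
        refine Finset.sum_congr rfl fun r _ => ?_
        have hr : t ^ a = t ^ (r : ℕ) * t ^ (a - (r : ℕ)) := by
          rw [← pow_add]; congr 1; omega
        rw [hr, div_pow]
        field_simp
    _ = _ := by
        have ht' : t ^ a = t ^ (p : ℕ) * t ^ (a - (p : ℕ)) := by rw [← pow_add, hp]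
        rw [h, ht', mul_mul_mul_comm, ← mul_pow, ← mul_pow]
        congr 2 <;> field_simp

theorem matrix_ext_of_eval {a : ℕ} {A B : Matrix (Fin (a + 1)) (Fin (a + 1)) ℂ}
    (h : ∀ p, ∀ s : ℂ, ∑ r, A r p * s ^ (r : ℕ) = ∑ r, B r p * s ^ (r : ℕ)) : A = B := by
  ext r p
  have hp : (∑ r : Fin (a + 1), C (A r p) * Polynomial.X ^ (r : ℕ)) =
      ∑ r : Fin (a + 1), C (B r p) * Polynomial.X ^ (r : ℕ) :=
    Polynomial.funext fun s => by simpa [Polynomial.eval_finsetSum] using h p s
  have := congrArg (Polynomial.coeff · (r : ℕ)) hp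
  simpa [Polynomial.finsetSum_coeff, Polynomial.coeff_C_mul, Polynomial.coeff_X_pow,
    Fin.val_inj] using this

theorem spinRep_mul (a : ℕ) (G H : Matrix (Fin 2) (Fin 2) ℂ) :
    spinRep a (G * H) = spinRep a G * spinRep a H := by
  refine matrix_ext_of_eval fun p s => ?_
  rw [sum_spinRep_pow]
  simp only [Matrix.mul_apply, Finset.sum_mul]
  rw [Finset.sum_comm]
  have e : ∀ q : Fin (a + 1), ∑ r : Fin (a + 1), spinRep a G r q * spinRep a H q p * s ^ (r : ℕ) =
      spinRep a H q p * ((G 0 0 * s + G 1 0) ^ (q : ℕ) * (G 0 1 * s + G 1 1) ^ (a - (q : ℕ))) := by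
    intro q
    rw [← sum_spinRep_pow, Finset.mul_sum]
    exact Finset.sum_congr rfl fun r _ => by ring
  simp only [e, sum_spinRep_pow₂, Fin.sum_univ_two]
  congr 2 <;> ring

theorem spinRep_smul_one (a : ℕ) (c : ℂ) :
    spinRep a (c • (1 : Matrix (Fin 2) (Fin 2) ℂ)) = c ^ a • 1 := by
  refine matrix_ext_of_eval fun p s => ?_
  rw [sum_spinRep_pow, Finset.sum_eq_single p]
  · have hp : (p : ℕ) + (a - p) = a := by omega
    simp only [Matrix.smul_apply, Matrix.one_apply_eq, smul_eq_mul, mul_one,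
      Matrix.one_apply_ne (show (0 : Fin 2) ≠ 1 by decide),
      Matrix.one_apply_ne (show (1 : Fin 2) ≠ 0 by decide), mul_zero, zero_mul, add_zero, zero_add]
    rw [mul_pow, mul_right_comm, ← pow_add, hp]
  · intro r _ hr; simp [hr]
  · simp

theorem spinRep_conj (a : ℕ) (G : Matrix (Fin 2) (Fin 2) ℂ) (r p : Fin (a + 1)) :
    conj (spinRep a G r p) = spinRep a (G.map conj) r p := by
  simp only [spinRep, Matrix.of_apply, colM, Matrix.map_apply]
  rw [← Polynomial.coeff_map]
  simp [Polynomial.map_mul, Polynomial.map_pow]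

theorem spinRep_transpose (a : ℕ) (G : Matrix (Fin 2) (Fin 2) ℂ) (r p : Fin (a + 1)) :
    (a.choose p : ℂ) * spinRep a G r p = (a.choose r : ℂ) * spinRep a G.transpose p r := by
  let A : Matrix (Fin (a + 1)) (Fin (a + 1)) ℂ := Matrix.of fun r p =>
    (a.choose p : ℂ) * spinRep a G r p
  let B : Matrix (Fin (a + 1)) (Fin (a + 1)) ℂ := Matrix.of fun r p =>
    (a.choose r : ℂ) * spinRep a G.transpose p r
  -- both sides have the generating function `(G₀₀st + G₁₀t + G₀₁s + G₁₁)^a`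
  have key : ∀ s t : ℂ, ∑ p, (∑ r, A r p * s ^ (r : ℕ)) * t ^ (p : ℕ) =
      ∑ p, (∑ r, B r p * s ^ (r : ℕ)) * t ^ (p : ℕ) := by
    intro s t
    have binom : ∀ u v : ℂ, ∑ q : Fin (a + 1), (a.choose q : ℂ) * (u ^ (q : ℕ) * v ^ (a - (q : ℕ)))
        = (u + v) ^ a := fun u v => by
      rw [add_pow, Fin.sum_univ_eq_sum_range (fun q => (a.choose q : ℂ) * (u ^ q * v ^ (a - q)))]
      exact Finset.sum_congr rfl fun q _ => by ring
    have hA : ∑ p, (∑ r, A r p * s ^ (r : ℕ)) * t ^ (p : ℕ) =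
        (t * (G 0 0 * s + G 1 0) + (G 0 1 * s + G 1 1)) ^ a := by
      rw [← binom]
      refine Finset.sum_congr rfl fun p _ => ?_
      simp only [A, Matrix.of_apply, mul_assoc, ← Finset.mul_sum, sum_spinRep_pow, mul_pow]
      ring
    have hB : ∑ p, (∑ r, B r p * s ^ (r : ℕ)) * t ^ (p : ℕ) =
        (s * (G 0 0 * t + G 0 1) + (G 1 0 * t + G 1 1)) ^ a := by
      simp only [Finset.sum_mul]
      rw [Finset.sum_comm, ← binom]
      refine Finset.sum_congr rfl fun r _ => ?_
      have e := sum_spinRep_pow a G.transpose r t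
      simp only [Matrix.transpose_apply] at e
      rw [mul_pow, mul_assoc, ← e, Finset.mul_sum, Finset.mul_sum]
      exact Finset.sum_congr rfl fun p _ => by simp only [B, Matrix.of_apply]; ring
    rw [hA, hB]; ring
  have hAB : A = B := by
    refine matrix_ext_of_eval fun p s => ?_
    have hp : (∑ q : Fin (a + 1), C (∑ r, A r q * s ^ (r : ℕ)) * Polynomial.X ^ (q : ℕ)) =
        ∑ q : Fin (a + 1), C (∑ r, B r q * s ^ (r : ℕ)) * Polynomial.X ^ (q : ℕ) :=
      Polynomial.funext fun t => by simpa [Polynomial.eval_finsetSum] using key s t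
    have := congrArg (Polynomial.coeff · (p : ℕ)) hp
    simpa only [Polynomial.finsetSum_coeff, Polynomial.coeff_C_mul, Polynomial.coeff_X_pow,
      Fin.val_inj, mul_ite, mul_one, mul_zero, Finset.sum_ite_eq, Finset.mem_univ,
      if_true] using this
  exact congrFun (congrFun hAB r) p

/-- `g = [[z, -w̄], [w, z̄]]`. -/
def gMat (x : Fin 4 → ℝ) : Matrix (Fin 2) (Fin 2) ℂ :=
  !![emb x 0, -emb x 3; emb x 1, emb x 2]

/-- `|x|²`. -/
def normSq4 (x : Fin 4 → ℝ) : ℝ := ∑ k, x k ^ 2

theorem evalS_coef (a : ℕ) (r p : Fin (a + 1)) (x : Fin 4 → ℝ) :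
    evalS (coef a r p) x = spinRep a (gMat x) r p := by
  rw [evalS, coef, ← Polynomial.coeff_map]
  simp [col, colU, colV, spinRep, colM, gMat]

theorem gMat_conjTranspose_mul (x : Fin 4 → ℝ) :
    ((gMat x).map conj).transpose * gMat x = ((normSq4 x : ℝ) : ℂ) • 1 := by
  ext i j
  fin_cases i <;> fin_cases j <;>
    simp [gMat, normSq4, Matrix.mul_apply, Fin.sum_univ_two, Fin.sum_univ_four, Complex.ext_iff,
      pow_two] <;>
    (try constructor) <;> ring

/-- Unitarity of the coefficients, weighted by the binomial coefficients. -/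
theorem coef_unitary (a : ℕ) (p q : Fin (a + 1)) (x : Fin 4 → ℝ) :
    ∑ r, conj (evalS (coef a r p) x) * evalS (coef a r q) x / (a.choose r : ℂ) =
      if p = q then ((normSq4 x : ℝ) : ℂ) ^ a / (a.choose p : ℂ) else 0 := by
  have hne : ∀ i : Fin (a + 1), (a.choose i : ℂ) ≠ 0 := fun i => by
    exact_mod_cast (Nat.choose_pos (by omega : (i : ℕ) ≤ a)).ne'
  have hM : spinRep a ((gMat x).map conj).transpose * spinRep a (gMat x) =
      (((normSq4 x : ℝ) : ℂ) ^ a) • 1 := by
    rw [← spinRep_mul, gMat_conjTranspose_mul, spinRep_smul_one]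
  have he := congrFun (congrFun hM p) q
  rw [Matrix.mul_apply] at he
  calc ∑ r, conj (evalS (coef a r p) x) * evalS (coef a r q) x / (a.choose r : ℂ)
      = (∑ r, spinRep a ((gMat x).map conj).transpose p r * spinRep a (gMat x) r q) /
          (a.choose p : ℂ) := by
        rw [Finset.sum_div]
        refine Finset.sum_congr rfl fun r _ => ?_
        have ht := spinRep_transpose a ((gMat x).map conj) r p
        rw [evalS_coef, evalS_coef, spinRep_conj]
        have h1 := hne r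
        have h2 := hne p
        field_simp
        linear_combination (spinRep a (gMat x) r q) * ht
    _ = _ := by
        rw [he]
        by_cases h : p = q <;> simp [h]

/-- Real form of the diagonal case. -/
theorem coef_normSq_sum (a : ℕ) (p : Fin (a + 1)) (x : Fin 4 → ℝ) :
    ∑ r, Complex.normSq (evalS (coef a r p) x) / (a.choose r : ℝ) =
      normSq4 x ^ a / (a.choose p : ℝ) := by
  have h := coef_unitary a p p x
  rw [if_pos rfl] at h
  have h2 := congrArg Complex.re h
  simpa [Complex.normSq_eq_conj_mul_self, ← Complex.ofReal_natCast, ← Complex.ofReal_pow,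
    ← Complex.ofReal_div, Complex.re_sum, Complex.div_ofReal_re, Complex.mul_re,
    Complex.normSq_apply] using h2

/-- The normalised coefficient is bounded by `1` on the unit sphere. -/
theorem coef_bound (a : ℕ) (r p : Fin (a + 1)) {x : Fin 4 → ℝ} (hx : normSq4 x = 1) :
    ‖evalS (coef a r p) x‖ ≤ Real.sqrt (a.choose r / a.choose p) := by
  have h := coef_normSq_sum a p x
  rw [hx, one_pow] at h
  have hle : Complex.normSq (evalS (coef a r p) x) / (a.choose r : ℝ) ≤ 1 / (a.choose p : ℝ) := by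
    rw [← h]
    exact Finset.single_le_sum (f := fun r : Fin (a + 1) =>
      Complex.normSq (evalS (coef a r p) x) / (a.choose r : ℝ))
      (fun i _ => div_nonneg (Complex.normSq_nonneg _) (Nat.cast_nonneg _)) (Finset.mem_univ r)
  have hr : (0 : ℝ) < a.choose r := by exact_mod_cast Nat.choose_pos (by omega : (r : ℕ) ≤ a)
  refine Real.le_sqrt_of_sq_le ?_
  rw [← Complex.normSq_eq_norm_sq]
  calc Complex.normSq (evalS (coef a r p) x)
      = Complex.normSq (evalS (coef a r p) x) / (a.choose r : ℝ) * (a.choose r : ℝ) := by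
        field_simp
    _ ≤ 1 / (a.choose p : ℝ) * (a.choose r : ℝ) := mul_le_mul_of_nonneg_right hle hr.le
    _ = _ := by ring

/-- Homogeneity. -/
theorem coef_smul (a : ℕ) (r p : Fin (a + 1)) (c : ℝ) (x : Fin 4 → ℝ) :
    evalS (coef a r p) (c • x) = (c : ℂ) ^ a * evalS (coef a r p) x := by
  have h : gMat (c • x) = ((c : ℂ) • (1 : Matrix (Fin 2) (Fin 2) ℂ)) * gMat x := by
    ext i j
    fin_cases i <;> fin_cases j <;> simp [gMat, Complex.real_smul] <;> ring
  rw [evalS_coef, evalS_coef, h, spinRep_mul, spinRep_smul_one]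
  simp

end

end Vale.Agent.P225.Alg
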